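import Vale.Agent.P181.BAL.Defs

set_option autoImplicit false

open scoped TensorProduct

/-!
# P181, BAL: row B6, nine letters

Four slots `A`, three slots `B`, two slots `C`; every cross bracket occurs. At
`ev ξ_0 + ε ev ξ_1 + ε ^ 2 ev ξ_2` only the maps slots -> points which are constant on the three
groups and separate them survive.
-/

open MvPolynomial

namespace Vale.Agent.P181.BAL.H467

open Vale.Agent.P181 Vale.Agent.P181.H280 Vale.Agent.P181.H54 Vale.Agent.P181.FR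
open Vale.Agent.P181.H188W

/-! ### The multilinear expansion -/

lemma evalPow_comp {a m : ℕ} (ξ : Fin m → ℂ) (g : Matrix (Fin m) (Fin m) ℂ) :
    (evalPow a (dotF ξ)) ∘ₗ (symMap a (Matrix.toLin' g)) =
      (evalPow a (dotF (Matrix.vecMul ξ g)) : (Sym[ℂ]^a (Fin m → ℂ)) →ₗ[ℂ] ℂ) := by
  apply sym_hom_ext
  intro v
  rw [LinearMap.comp_apply, symMap_tprod, evalPow_tprod, evalPow_tprod]
  apply Finset.prod_congr rfl
  intro i _
  rw [← dotF_comp, LinearMap.comp_apply]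

lemma ev_act {B a m : ℕ} (φ : Module.Dual ℂ (Sym[ℂ]^a (Fin m → ℂ)))
    (g : Matrix (Fin m) (Fin m) ℂ) (y : Pleth B a m) :
    ev φ (plethAct B a m g y) = ev (φ ∘ₗ symMap a (Matrix.toLin' g)) y := by
  have h := H54.symEval_symMap B (symMap a (Matrix.toLin' g)) (fun _ : Fin B => φ)
    (y : Sym[ℂ]^B (Sym[ℂ]^a (Fin m → ℂ)))
  exact h

/-- The expansion of the value at a combination of points. -/
lemma ev_sum {B a m : ℕ} {Q : Type} [Fintype Q] (c : Q → ℂ) (ξ : Q → Fin m → ℂ)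
    (y : Pleth B a m) :
    ev (∑ q, c q • evalPow a (dotF (ξ q))) y =
      ∑ t : Fin B → Q, (∏ j, c (t j)) * ptv y (fun j => ξ (t j)) := by
  classical
  have h1 : ev (∑ q, c q • evalPow a (dotF (ξ q))) y =
      symEvalM (y : Sym[ℂ]^B (Sym[ℂ]^a (Fin m → ℂ)))
        (fun _ : Fin B => ∑ q, c q • evalPow a (dotF (ξ q))) := rfl
  rw [h1, MultilinearMap.map_sum]
  apply Finset.sum_congr rfl
  intro t _
  have h2 := (symEvalM (y : Sym[ℂ]^B (Sym[ℂ]^a (Fin m → ℂ)))).map_smul_univ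
    (fun j => c (t j)) (fun j => evalPow a (dotF (ξ (t j))))
  rw [h2, smul_eq_mul]
  rfl

/-- The expansion of the line of the vector of the function `G`. -/
lemma ev_line {B a m : ℕ} {Q : Type} [Fintype Q] (c : Q → ℂ) (ξ : Q → Fin m → ℂ)
    (y : Pleth B a m) (G : (Fin B → Fin m → ℂ) → ℂ)
    (hG : ∀ p, ptv y p = ∑ σ : Equiv.Perm (Fin B), G (fun j => p (σ j)))
    (g : Matrix (Fin m) (Fin m) ℂ) :
    ev (∑ q, c q • evalPow a (dotF (ξ q))) (plethAct B a m g y) =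
      (Fintype.card (Equiv.Perm (Fin B)) : ℂ) *
        ∑ t : Fin B → Q, (∏ j, c (t j)) * G (fun j => Matrix.vecMul (ξ (t j)) g) := by
  classical
  rw [ev_act]
  have h1 : (∑ q, c q • evalPow a (dotF (ξ q))) ∘ₗ symMap a (Matrix.toLin' g) =
      (∑ q, c q • evalPow a (dotF (Matrix.vecMul (ξ q) g)) :
        (Sym[ℂ]^a (Fin m → ℂ)) →ₗ[ℂ] ℂ) := by
    ext x
    simp only [LinearMap.comp_apply, LinearMap.sum_apply, LinearMap.smul_apply]
    apply Finset.sum_congr rfl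
    intro q _
    rw [← evalPow_comp, LinearMap.comp_apply]
  rw [h1, ev_sum]
  have h2 : ∀ t : Fin B → Q, (∏ j, c (t j)) * ptv y (fun j => Matrix.vecMul (ξ (t j)) g) =
      ∑ σ : Equiv.Perm (Fin B), (∏ j, c (t (σ j))) *
        G (fun j => Matrix.vecMul (ξ (t (σ j))) g) := by
    intro t
    rw [hG, Finset.mul_sum]
    apply Finset.sum_congr rfl
    intro σ _
    rw [Equiv.prod_comp σ (fun j => c (t j))]
  rw [Finset.sum_congr rfl (fun t _ => h2 t), Finset.sum_comm]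
  have h3 : ∀ σ : Equiv.Perm (Fin B), ∑ t : Fin B → Q, (∏ j, c (t (σ j))) *
      G (fun j => Matrix.vecMul (ξ (t (σ j))) g) =
      ∑ t : Fin B → Q, (∏ j, c (t j)) * G (fun j => Matrix.vecMul (ξ (t j)) g) := by
    intro σ
    exact Equiv.sum_comp (Equiv.arrowCongr σ.symm (Equiv.refl Q))
      (fun t : Fin B → Q => (∏ j, c (t j)) * G (fun j => Matrix.vecMul (ξ (t j)) g))
  rw [Finset.sum_congr rfl (fun σ _ => h3 σ), Finset.sum_const, nsmul_eq_mul, Finset.card_univ]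

/-- The vector of a highest weight function. -/
lemma mem_hw {B a m : ℕ} {lam : Fin m → ℕ} (x : Pleth B a m) (G : (Fin B → Fin m → ℂ) → ℂ)
    (hx : ∀ p, ptv x p = ∑ σ : Equiv.Perm (Fin B), G (fun j => p (σ j))) (hw : HWF B m lam G) :
    x ∈ hwSpace lam (plethAct B a m) := by
  intro g hg
  apply ptv_sep
  intro p
  rw [ptv_act, ptv_smul, hx, hx, Finset.mul_sum]
  apply Finset.sum_congr rfl
  intro σ _
  exact hw g hg (fun j => p (σ j))

/-! ### The slots and the exponents -/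

/-- The four slots `A`. -/
def sA : Fin 4 → Fin 9 := ![0, 1, 2, 3]

/-- The three slots `B`. -/
def sB : Fin 3 → Fin 9 := ![4, 5, 6]

/-- The two slots `C`. -/
def sC : Fin 2 → Fin 9 := ![7, 8]

/-- The exponents of the brackets `[A B]`. -/
def eAB (a : ℕ) : Fin 4 → Fin 3 → ℕ := ![![5, 1, 1], ![2, 1, 1], ![1, a - 5, 1], ![2, 1, a - 5]]

/-- The exponents of the brackets `[A C]`. -/
def eAC (a i : ℕ) : Fin 4 → Fin 2 → ℕ := ![![4 + i, 1], ![2, a - 6], ![2, 1], ![1, 1]]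

/-- The exponents of the brackets `[B C]`. -/
def eBC (a i : ℕ) : Fin 3 → Fin 2 → ℕ := ![![1 + (a - 12 - i), 1], ![1, 1], ![1, 1]]

lemma eAB_ne {a : ℕ} (ha : 12 ≤ a) (x : Fin 4) (y : Fin 3) : eAB a x y ≠ 0 := by
  fin_cases x <;> fin_cases y <;> simp [eAB] <;> omega

lemma eAC_ne {a : ℕ} (i : ℕ) (ha : 12 ≤ a) (x : Fin 4) (y : Fin 2) : eAC a i x y ≠ 0 := by
  fin_cases x <;> fin_cases y <;> simp [eAC] <;> omega

lemma eBC_ne (a i : ℕ) (x : Fin 3) (y : Fin 2) : eBC a i x y ≠ 0 := by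
  fin_cases x <;> fin_cases y <;> simp [eBC]

lemma eAB_sum {a : ℕ} (ha : 12 ≤ a) : ∑ x, ∑ y, eAB a x y = 2 * a + 6 := by
  simp [eAB, Fin.sum_univ_succ]
  omega

lemma eAC_sum {a : ℕ} (i : ℕ) (ha : 12 ≤ a) : ∑ x, ∑ y, eAC a i x y = a + 6 + i := by
  simp [eAC, Fin.sum_univ_succ]
  omega

lemma eBC_sum (a i : ℕ) : ∑ x, ∑ y, eBC a i x y = 6 + (a - 12 - i) := by
  simp [eBC, Fin.sum_univ_succ]
  omega

/-- The bracket of two slots. -/
noncomputable def br (k : ℕ) (x y : Fin 9) : (Fin 9 → Fin (k + 2) → ℂ) → ℂ :=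
  dt (Nat.le_add_left 2 k) ![x, y]

/-- The first coordinate of a slot. -/
noncomputable def uu (k : ℕ) (x : Fin 9) : (Fin 9 → Fin (k + 2) → ℂ) → ℂ :=
  dt (Nat.le_add_left 1 (k + 1)) ![x]

lemma br_apply (k : ℕ) (x y : Fin 9) (p : Fin 9 → Fin (k + 2) → ℂ) :
    br k x y p = p x 0 * p y 1 - p x 1 * p y 0 := by
  unfold br dt
  rw [Matrix.det_fin_two]
  rfl

lemma uu_apply (k : ℕ) (x : Fin 9) (p : Fin 9 → Fin (k + 2) → ℂ) :
    uu k x p = p x 0 := by
  unfold uu dt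
  rw [Matrix.det_fin_one]
  rfl

/-- The function of nine points. -/
noncomputable def GG (k a i : ℕ) : (Fin 9 → Fin (k + 2) → ℂ) → ℂ :=
  (∏ x, ∏ y, br k (sA x) (sB y) ^ eAB a x y) * (∏ x, ∏ y, br k (sA x) (sC y) ^ eAC a i x y) *
    (∏ x, ∏ y, br k (sB x) (sC y) ^ eBC a i x y) * (uu k (sA 0) ^ (a - 12 - i) * uu k (sB 0) ^ i)

lemma GG_MP (k a i : ℕ) (ha : 12 ≤ a) (hi : i ≤ a - 12) : GG k a i ∈ MP 9 (k + 2) a := by
  have hb : ∀ x y : Fin 9, br k x y ∈ MPd 9 (k + 2) (∑ j, Pi.single ((![x, y] : Fin 2 → Fin 9) j) 1) :=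
    fun x y => dt_MPd _ _
  have hu : ∀ x : Fin 9, uu k x ∈ MPd 9 (k + 2) (∑ j, Pi.single ((![x] : Fin 1 → Fin 9) j) 1) :=
    fun x => dt_MPd _ _
  have h := MPd_mul (MPd_mul (MPd_mul
    (MPd_prod Finset.univ _ _ (fun x _ => MPd_prod Finset.univ _ _
      (fun y _ => MPd_pow (hb (sA x) (sB y)) (eAB a x y))))
    (MPd_prod Finset.univ _ _ (fun x _ => MPd_prod Finset.univ _ _
      (fun y _ => MPd_pow (hb (sA x) (sC y)) (eAC a i x y)))))
    (MPd_prod Finset.univ _ _ (fun x _ => MPd_prod Finset.univ _ _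
      (fun y _ => MPd_pow (hb (sB x) (sC y)) (eBC a i x y)))))
    (MPd_mul (MPd_pow (hu (sA 0)) (a - 12 - i)) (MPd_pow (hu (sB 0)) i))
  rw [← MPd_const]
  unfold GG
  convert h using 1
  congr 1
  funext j
  fin_cases j <;>
    simp [Fin.sum_univ_succ, sA, sB, sC, eAB, eAC, eBC] <;> omega

lemma GG_HWF (k a i : ℕ) (ha : 12 ≤ a) (hi : i ≤ a - 12) :
    HWF 9 (k + 2) (nuK a 1 k) (GG k a i) := by
  have hb : ∀ x y : Fin 9, HWF 9 (k + 2) (om (k + 2) 2) (br k x y) := fun x y => dt_HWF _ _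
  have hu : ∀ x : Fin 9, HWF 9 (k + 2) (om (k + 2) 1) (uu k x) := fun x => dt_HWF _ _
  have h := HWF_mul (HWF_mul (HWF_mul
    (HWF_prod Finset.univ _ _ (fun x _ => HWF_prod Finset.univ _ _
      (fun y _ => HWF_pow (hb (sA x) (sB y)) (eAB a x y))))
    (HWF_prod Finset.univ _ _ (fun x _ => HWF_prod Finset.univ _ _
      (fun y _ => HWF_pow (hb (sA x) (sC y)) (eAC a i x y)))))
    (HWF_prod Finset.univ _ _ (fun x _ => HWF_prod Finset.univ _ _
      (fun y _ => HWF_pow (hb (sB x) (sC y)) (eBC a i x y)))))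
    (HWF_mul (HWF_pow (hu (sA 0)) (a - 12 - i)) (HWF_pow (hu (sB 0)) i))
  unfold GG
  convert h using 1
  simp only [← Finset.sum_smul]
  rw [eAB_sum ha, eAC_sum i ha, eBC_sum]
  funext l
  simp only [Pi.add_apply, Pi.smul_apply, smul_eq_mul, om, nuK]
  by_cases h0 : (l : ℕ) = 0
  · rw [if_pos h0, h0]
    simp
    omega
  · rw [if_neg h0]
    by_cases h1 : (l : ℕ) = 1
    · rw [if_pos h1, h1]
      simp
      omega
    · rw [if_neg h1, if_neg (by omega), if_neg (by omega)]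
      simp

/-! ### The values -/

/-- The three points. -/
noncomputable def xi (k : ℕ) : Fin 3 → Fin (k + 2) → ℂ :=
  ![Pi.single 0 1, Pi.single 1 1, Pi.single 0 1 + Pi.single 1 1]

/-- The brackets of the three points. -/
def be : Fin 3 → Fin 3 → ℂ := ![![0, 1, 1], ![-1, 0, -1], ![-1, 1, 0]]

/-- The first coordinates of the three points, moved by `n(s)`. -/
def up (s : ℂ) : Fin 3 → ℂ := ![1, s, 1 + s]

lemma vecMul_ns (k : ℕ) (s : ℂ) (v : Fin (k + 2) → ℂ) :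
    Matrix.vecMul v (ns k s) = v + Pi.single 0 (v 1 * s) := by
  unfold ns
  rw [Matrix.vecMul_add, Matrix.vecMul_one]
  congr 1
  funext l
  simp only [Matrix.vecMul, dotProduct, Matrix.single_apply, Pi.single_apply]
  by_cases hl : l = 0
  · subst hl
    rw [if_pos rfl, Finset.sum_eq_single 1]
    · rw [if_pos ⟨rfl, rfl⟩]
    · intro b _ hb
      rw [if_neg (fun h => hb h.1.symm), mul_zero]
    · intro h
      exact absurd (Finset.mem_univ _) h
  · rw [if_neg hl]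
    apply Finset.sum_eq_zero
    intro b _
    rw [if_neg (fun h => hl h.2.symm), mul_zero]

lemma pt0 (k : ℕ) (s : ℂ) (q : Fin 3) : Matrix.vecMul (xi k q) (ns k s) 0 = up s q := by
  rw [vecMul_ns]
  fin_cases q <;> simp [xi, up]

lemma pt1 (k : ℕ) (s : ℂ) (q : Fin 3) :
    Matrix.vecMul (xi k q) (ns k s) 1 = (![0, 1, 1] : Fin 3 → ℂ) q := by
  rw [vecMul_ns]
  fin_cases q <;> simp [xi]

lemma br_pt (k : ℕ) (s : ℂ) (t : Fin 9 → Fin 3) (x y : Fin 9) :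
    br k x y (fun j => Matrix.vecMul (xi k (t j)) (ns k s)) = be (t x) (t y) := by
  rw [br_apply, pt0, pt0, pt1, pt1]
  generalize t x = q
  generalize t y = q'
  fin_cases q <;> fin_cases q' <;> simp [up, be]

lemma uu_pt (k : ℕ) (s : ℂ) (t : Fin 9 → Fin 3) (x : Fin 9) :
    uu k x (fun j => Matrix.vecMul (xi k (t j)) (ns k s)) = up s (t x) := by
  rw [uu_apply, pt0]

lemma be_self (q : Fin 3) : be q q = 0 := by
  fin_cases q <;> rfl

lemma GG_pt (k a i : ℕ) (s : ℂ) (t : Fin 9 → Fin 3) :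
    GG k a i (fun j => Matrix.vecMul (xi k (t j)) (ns k s)) =
      (∏ x, ∏ y, be (t (sA x)) (t (sB y)) ^ eAB a x y) *
      (∏ x, ∏ y, be (t (sA x)) (t (sC y)) ^ eAC a i x y) *
      (∏ x, ∏ y, be (t (sB x)) (t (sC y)) ^ eBC a i x y) *
      (up s (t (sA 0)) ^ (a - 12 - i) * up s (t (sB 0)) ^ i) := by
  unfold GG
  simp only [Pi.mul_apply, Finset.prod_apply, Pi.pow_apply, br_pt, uu_pt]

/-- The map slots -> points which is constant on the three groups. -/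
def TT (q : Fin 3 × Fin 3 × Fin 3) : Fin 9 → Fin 3 :=
  ![q.1, q.1, q.1, q.1, q.2.1, q.2.1, q.2.1, q.2.2, q.2.2]

lemma TT_A (q : Fin 3 × Fin 3 × Fin 3) (x : Fin 4) : TT q (sA x) = q.1 := by
  fin_cases x <;> rfl

lemma TT_B (q : Fin 3 × Fin 3 × Fin 3) (x : Fin 3) : TT q (sB x) = q.2.1 := by
  fin_cases x <;> rfl

lemma TT_C (q : Fin 3 × Fin 3 × Fin 3) (x : Fin 2) : TT q (sC x) = q.2.2 := by
  fin_cases x <;> rfl

lemma TT_inj : Function.Injective TT := by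
  intro q q' h
  have h1 := congrFun h (sA 0)
  have h2 := congrFun h (sB 0)
  have h3 := congrFun h (sC 0)
  rw [TT_A, TT_A] at h1
  rw [TT_B, TT_B] at h2
  rw [TT_C, TT_C] at h3
  exact Prod.ext h1 (Prod.ext h2 h3)

lemma third : ∀ p q x y : Fin 3, p ≠ q → x ≠ p → x ≠ q → y ≠ p → y ≠ q → x = y := by
  decide

lemma eq_TT (t : Fin 9 → Fin 3) (h1 : ∀ x y, t (sA x) ≠ t (sB y)) (h2 : ∀ x y, t (sA x) ≠ t (sC y))
    (h3 : ∀ x y, t (sB x) ≠ t (sC y)) : TT (t (sA 0), t (sB 0), t (sC 0)) = t := by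
  have hA : ∀ x, t (sA 0) = t (sA x) := fun x =>
    third (t (sB 0)) (t (sC 0)) _ _ (h3 0 0) (h1 0 0) (h2 0 0) (h1 x 0) (h2 x 0)
  have hB : ∀ x, t (sB 0) = t (sB x) := fun x =>
    third (t (sA 0)) (t (sC 0)) _ _ (h2 0 0) (h1 0 0).symm (h3 0 0) (h1 0 x).symm (h3 x 0)
  have hC : ∀ x, t (sC 0) = t (sC x) := fun x =>
    third (t (sA 0)) (t (sB 0)) _ _ (h1 0 0) (h2 0 0).symm (h3 0 0).symm (h2 0 x).symm
      (h3 0 x).symm
  funext j
  fin_cases j
  · exact hA 0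
  · exact hA 1
  · exact hA 2
  · exact hA 3
  · exact hB 0
  · exact hB 1
  · exact hB 2
  · exact hC 0
  · exact hC 1

/-- The value of one term. -/
noncomputable def term (a i : ℕ) (ε s : ℂ) (q : Fin 3 × Fin 3 × Fin 3) : ℂ :=
  ((![1, ε, ε ^ 2] : Fin 3 → ℂ) q.1 ^ 4 * (![1, ε, ε ^ 2] : Fin 3 → ℂ) q.2.1 ^ 3 *
    (![1, ε, ε ^ 2] : Fin 3 → ℂ) q.2.2 ^ 2) *
  (be q.1 q.2.1 ^ (2 * a + 6) * be q.1 q.2.2 ^ (a + 6 + i) * be q.2.1 q.2.2 ^ (6 + (a - 12 - i)) *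
    (up s q.1 ^ (a - 12 - i) * up s q.2.1 ^ i))

lemma sum_pt (k a i : ℕ) (ha : 12 ≤ a) (ε s : ℂ) :
    ∑ t : Fin 9 → Fin 3, (∏ j, (![1, ε, ε ^ 2] : Fin 3 → ℂ) (t j)) *
        GG k a i (fun j => Matrix.vecMul (xi k (t j)) (ns k s)) =
      ∑ q : Fin 3 × Fin 3 × Fin 3, term a i ε s q := by
  symm
  apply Fintype.sum_of_injective TT TT_inj
  · intro t ht
    rw [GG_pt]
    by_cases h1 : ∀ x y, t (sA x) ≠ t (sB y)
    · by_cases h2 : ∀ x y, t (sA x) ≠ t (sC y)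
      · by_cases h3 : ∀ x y, t (sB x) ≠ t (sC y)
        · exact absurd ⟨_, eq_TT t h1 h2 h3⟩ ht
        · push Not at h3
          obtain ⟨x, y, h⟩ := h3
          rw [Finset.prod_eq_zero (s := Finset.univ)
            (f := fun x => ∏ y, be (t (sB x)) (t (sC y)) ^ eBC a i x y) (Finset.mem_univ x)
            (Finset.prod_eq_zero (Finset.mem_univ y) (by
              rw [h, be_self, zero_pow (eBC_ne a i x y)]))]
          ring
      · push Not at h2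
        obtain ⟨x, y, h⟩ := h2
        rw [Finset.prod_eq_zero (s := Finset.univ)
          (f := fun x => ∏ y, be (t (sA x)) (t (sC y)) ^ eAC a i x y) (Finset.mem_univ x)
          (Finset.prod_eq_zero (Finset.mem_univ y) (by
            rw [h, be_self, zero_pow (eAC_ne i ha x y)]))]
        ring
    · push Not at h1
      obtain ⟨x, y, h⟩ := h1
      rw [Finset.prod_eq_zero (s := Finset.univ)
        (f := fun x => ∏ y, be (t (sA x)) (t (sB y)) ^ eAB a x y) (Finset.mem_univ x)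
        (Finset.prod_eq_zero (Finset.mem_univ y) (by
          rw [h, be_self, zero_pow (eAB_ne ha x y)]))]
      ring
  · intro q
    rw [GG_pt]
    simp only [TT_A, TT_B, TT_C, Finset.prod_pow_eq_pow_sum]
    rw [eAB_sum ha, eAC_sum i ha, eBC_sum]
    unfold term
    congr 1
    simp [Fin.prod_univ_succ, TT]
    ring

lemma sum_term (a i : ℕ) (ε s : ℂ) : ∑ q : Fin 3 × Fin 3 × Fin 3, term a i ε s q =
    (-1) ^ (6 + (a - 12 - i)) * ε ^ 7 * (s ^ i + ε * ((-1) ^ (6 + (a - 12 - i)) *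
      ((1 + s) ^ i + (-1) ^ (2 * a + 6) * (-1) ^ (a + 6 + i) * s ^ (a - 12 - i) +
        ε ^ 2 * ((-1) ^ (2 * a + 6) * (-1) ^ (a + 6 + i) * (-1) ^ (6 + (a - 12 - i)) *
          s ^ (a - 12 - i) * (1 + s) ^ i + (-1) ^ (2 * a + 6) * (1 + s) ^ (a - 12 - i)) +
        ε ^ 3 * ((-1) ^ (a + 6 + i) * (-1) ^ (6 + (a - 12 - i)) * (1 + s) ^ (a - 12 - i) *
          s ^ i)))) := by
  have h1 : (0 : ℂ) ^ (2 * a + 6) = 0 := zero_pow (by omega)
  have h2 : (0 : ℂ) ^ (a + 6 + i) = 0 := zero_pow (by omega)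
  have h3 : (0 : ℂ) ^ (6 + (a - 12 - i)) = 0 := zero_pow (by omega)
  have h4 : ((-1 : ℂ) ^ (6 + (a - 12 - i))) * (-1) ^ (6 + (a - 12 - i)) = 1 := by
    rw [← pow_add, ← two_mul, pow_mul]
    norm_num
  rw [Fintype.sum_prod_type]
  simp only [Fintype.sum_prod_type, Fin.sum_univ_three, term, be, up, Matrix.cons_val_zero,
    Matrix.cons_val_one, Matrix.cons_val, h1, h2, h3, one_pow]
  generalize ((-1 : ℂ) ^ (6 + (a - 12 - i))) = σ at h4 ⊢
  generalize ((-1 : ℂ) ^ (2 * a + 6)) = σ1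
  generalize ((-1 : ℂ) ^ (a + 6 + i)) = σ2
  generalize ((1 : ℂ) + s) ^ i = w1
  generalize ((1 : ℂ) + s) ^ (a - 12 - i) = w2
  generalize s ^ (a - 12 - i) = w3
  generalize s ^ i = w4
  linear_combination (-(ε ^ 8) * (w1 + σ1 * σ2 * w3 + ε ^ 2 * (σ1 * σ2 * σ * w3 * w1 + σ1 * w2) +
    ε ^ 3 * (σ2 * σ * w2 * w4))) * h4

/-- **(B6)** -/
theorem nine : Nine := by
  intro a k ha
  refine ⟨fun ε => ∑ q, (![1, ε, ε ^ 2] : Fin 3 → ℂ) q • evalPow a (dotF (xi k q)), ?_⟩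
  intro i hi
  obtain ⟨y, hy⟩ := exists_ptv _ (GG_MP k a i ha hi)
  refine ⟨y, mem_hw y _ hy (GG_HWF k a i ha hi), ?_⟩
  refine ⟨(Fintype.card (Equiv.Perm (Fin 9)) : ℂ) * (-1) ^ (6 + (a - 12 - i)),
    Polynomial.C (Polynomial.C ((-1) ^ (6 + (a - 12 - i)))) *
      (Polynomial.C ((1 + Polynomial.X) ^ i + Polynomial.C ((-1) ^ (2 * a + 6) *
          (-1) ^ (a + 6 + i)) * Polynomial.X ^ (a - 12 - i)) +
        Polynomial.X ^ 2 * Polynomial.C (Polynomial.C ((-1) ^ (2 * a + 6) * (-1) ^ (a + 6 + i) *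
          (-1) ^ (6 + (a - 12 - i))) * Polynomial.X ^ (a - 12 - i) * (1 + Polynomial.X) ^ i +
          Polynomial.C ((-1) ^ (2 * a + 6)) * (1 + Polynomial.X) ^ (a - 12 - i)) +
        Polynomial.X ^ 3 * Polynomial.C (Polynomial.C ((-1) ^ (a + 6 + i) *
          (-1) ^ (6 + (a - 12 - i))) * (1 + Polynomial.X) ^ (a - 12 - i) * Polynomial.X ^ i)),
    ?_, ?_⟩
  · apply mul_ne_zero
    · exact fac_ne 9
    · exact pow_ne_zero _ (by norm_num)
  · intro ε s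
    have h1 := ev_line (![1, ε, ε ^ 2] : Fin 3 → ℂ) (xi k) y (GG k a i) hy (ns k s)
    rw [sum_pt k a i ha, sum_term] at h1
    refine h1.trans ?_
    simp only [Polynomial.eval_mul, Polynomial.eval_add, Polynomial.eval_C, Polynomial.eval_pow,
      Polynomial.eval_X, Polynomial.eval_one]
    ring

end Vale.Agent.P181.BAL.H467
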